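import Crest.Agent.X262.End95.Cl
import Crest.Agent.X262.Loc95.Kc
import Crest.Agent.X262.Rul.Core

/-!
# Row 262, REG (helper18): the two inputs of DIV-A which are not statements of `Bnd/Defs`
-/

set_option autoImplicit false

noncomputable section

namespace Crest.Agent.X262.Reg

open Crest.Agent.X277 Crest.Agent.X277.Lef Crest.Agent.X277.BD Crest.Agent.X277.Pst
open Crest.Agent.X277.BD.Br (On oP kP)
open Crest.Agent.X277.BD.Cyc (Rf plV)
open Crest.Agent.X262.Mod Crest.Agent.X262.Sark Crest.Agent.X262.Bnd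
open Crest.Agent.X262.Geo (od dv)

/-- adjunction on the generic fibre of a prime over its centre -/
def AdjGStmt : Prop := ∀ (K : Type) [Field K] [Algebra ℂ K] [Algebra.EssFiniteType ℂ K]
  (b : Bs 4 K) (P : PModel ℂ K) (H : BD ℂ K) (V : RZ ℂ K), H.Free → H ∈ On P → Prm (oP P) V →
    dim ℂ (ctr H V) = 2 →
      2 * (Loc.gn (cl H V) (Rf V) : ℤ) - 2 ≤ fdg V (cl H V) (kP P b + dv P V)

/-- Lemma A: `-(K_Z + E) · f ≤ 1` if the centre of `E` is not a surface; `ε = m E` -/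
def LemAStmt : Prop := ∀ (K : Type) [Field K] [Algebra ℂ K] [Algebra.EssFiniteType ℂ K]
  (b : Bs 4 K) (Z Y : TM b) (E : RZ ℂ K) (L : IntermediateField ℂ (Rf E)) (t : Rf E)
  (ε : BD ℂ K) (m : ℕ), Ext Z Y E → PG2 L → Rul.IsRat L t → ctr Y.H E ≤ L →
    dim ℂ (ctr Y.H E) < 2 → 0 < m → Car Z.H ε → (∀ V, Prm Y.H V → od V ε = 0) → od E ε = m →
      fdg E L (-(m • Z.κ + Z.r • ε)) ≤ m * Z.r

end Crest.Agent.X262.Reg
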