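import Crest.Agent.X262.Reg18.Main
import Crest.Agent.X262.Geo.Adj
import Crest.Agent.X262.End95.Pg

/-!
# Row 262, REG (helper18): `AdjGStmt` holds; DIV-A from RC and Lemma A
-/

set_option autoImplicit false

namespace Crest.Agent.X262.Reg

open Crest.Agent.X277.BD Crest.Agent.X277.BD.Cyc
open Crest.Agent.X262.Bnd Crest.Agent.X262.End95 Crest.Agent.X262.Geo

theorem adjG : AdjGStmt := fun K _ _ _ b P H V hH hP hV h => by
  have := essFT_Rf hV.dvs
  rw [fdg_eq, cl_eq_cen hH]
  exact adj_up (q := plV V) (lnr_plV V) (surj_plV V) hV b (Pl.free_rs hH)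
    (car_rs Br.free_oP (car_of_On hP))
    (Loc.dim_cen_one hV.dvs (d := 2) (Gfm.dim_eq_of_basis b) ((dim_ctr hH hV.dvs).symm.trans h))

/-- **DIV-A** -/
theorem divA (hRC : RCStmt) (hL : LemAStmt) : DivAStmt := divA_of hRC pgStmt adjG hL

end Crest.Agent.X262.Reg
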