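import Crest.Agent.X262.Reg18.Num
import Crest.Agent.X262.Reg18.Defs
import Crest.Agent.X262.Live3.Main
import Crest.Agent.X262.Rho82.Nef
import Crest.Agent.X262.Gfm18.Vol

/-!
# Row 262, REG (helper18): DIV-A

* `rC`, `ctrHom`  : the field of the centre depends only on the local ring;
* `dg_of_le`      : classes from a model which contracts the ruling have degree zero;
* `slice`         : `-K_Z · f ≥ 1` and `E` is ruled;
* `divA_of`       : DIV-A.
-/

set_option autoImplicit false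
set_option linter.style.haveILetI false

noncomputable section

namespace Crest.Agent.X262.Reg

open Crest.Agent.X277 Crest.Agent.X277.Lef Crest.Agent.X277.BD Crest.Agent.X277.Pst
open Crest.Agent.X277.BD.Br (On oP kP)
open Crest.Agent.X277.BD.Cyc (Rf plV lnr_plV)
open Crest.Agent.X262.Mod Crest.Agent.X262.Sark Crest.Agent.X262.Bnd Crest.Agent.X262.End95
open Crest.Agent.X262.Geo Crest.Agent.X262.Loc Crest.Agent.X262.Slc57
open List (replicate)
open Finset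

variable {K : Type} [Field K] [Algebra ℂ K] {H H' a : BD ℂ K} {V W : RZ ℂ K} {d : ℕ}

/-- the residue map of the local ring of the centre -/
def rC (H : BD ℂ K) (V : RZ ℂ K) : loc H V →ₐ[ℂ] ctr H V where
  toFun x := ⟨(plV V).r x, r_mem_ctr x.2⟩
  map_one' := Subtype.ext (plV V).r_one
  map_mul' x y := Subtype.ext (Pl.r_mul (p := plV V) (mem_of_loc x.2) (mem_of_loc y.2))
  map_zero' := Subtype.ext (plV V).r_zero
  map_add' x y := Subtype.ext (Pl.r_add (p := plV V) (mem_of_loc x.2) (mem_of_loc y.2))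
  commutes' c := Subtype.ext (lnr_plV V c)

theorem rC_surj (H : BD ℂ K) (V : RZ ℂ K) : Function.Surjective (rC H V) := fun z => by
  obtain ⟨x, h1, h2⟩ := Live3.exists_r_eq z.2
  exact ⟨⟨x, h1⟩, Subtype.ext h2⟩

/-- the field of the centre depends only on the local ring -/
theorem exists_ctrHom (h : loc H W = loc H V) : Nonempty (ctr H V →ₐ[ℂ] ctr H W) := by
  refine ⟨(rC H V).liftOfSurjective (rC_surj H V) ((rC H W).comp (Subalgebra.inclusion h.ge))
    fun x hx => ?_⟩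
  by_contra hc
  have h1 : W.v x = 1 := (Pl.r_ne_zero_iff (p := plV W)).1 fun h1 => hc (Subtype.ext h1)
  exact (Pl.r_ne_zero_iff (p := plV V)).2 (Live3.v_eq_one_of_loc h.symm (h.ge x.2) h1)
    (congrArg Subtype.val hx)

theorem dim_of_pg2 {F : Type} [Field F] [Algebra ℂ F] (h : PG2 F) : dim ℂ F = 2 := by
  obtain ⟨P, c, -⟩ := h
  haveI := eft P
  exact Gfm.dim_eq_of_basis c

variable [Algebra.EssFiniteType ℂ K]

theorem pg2_of_loc (hPG : PGStmt) (hW : Dvs W) (h : loc H W = loc H V) (h1 : Srf H V)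
    (h2 : dim ℂ (ctr H W) = 2) : Srf H W := by
  haveI := essFT_Rf hW
  obtain ⟨φ⟩ := exists_ctrHom h
  exact hPG _ _ φ h1 h2

/-- classes from a model which contracts the ruling have degree zero -/
theorem dg_of_le (hH : H.Free) (hH' : H'.Free) (hV : Dvs V) (h : dim ℂ (cen H V) = d)
    (h1 : ctr H' V ≤ cl H V) (ha : Car H' a) : dg V (a :: replicate d H) = 0 := by
  haveI := essFT_Rf hV
  have h2 : cen H' V ≤ cen H V := by
    rw [← cl_eq_cen hH, ← cl_eq_cen hH']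
    exact fun y hy => cl_cl (isAlg_mono h1 (mem_cl.1 hy))
  rw [dg_cen_one hH h, (Gfm.lin_up_of_car ((plV V).free_rs hH') (Rho82.car_rs _ ha) h2).bnum_eq,
    bnum_zero, mul_zero]

theorem adjAt (hA : AdjGStmt) (b : Bs 4 K) {P : PModel ℂ K} (hH : H.Free) (hP : H ∈ On P) :
    AdjAt P (kP P b) H 2 := fun V hV h => by
  have h1 := (dim_ctr hH hV.dvs).trans h
  have h2 := hA K b P H V hH hP hV h1
  have h3 := dlV_pos hH hV.dvs
  rw [dg_eq_fdg hH hV.dvs h1]
  nlinarith [Int.natCast_nonneg (gn (cl H V) (Rf V))]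

theorem od_κ_le {b : Bs 4 K} (Z : TM b) {P : PModel ℂ K} (hV : Prm (oP P) V) :
    od V (Z.κ - Z.r • kP P b) ≤ 0 := by
  rw [map_sub, sub_nonpos]
  exact (od_le_iff hV.dvs).2 (Gfm.leOn_kP Z P V hV)

theorem od_κ_eq {b : Bs 4 K} (Z : TM b) {P : PModel ℂ K} (hV : Prm (oP P) V) (h : Prm Z.H V) :
    od V (Z.κ - Z.r • kP P b) = 0 := by
  rw [map_sub, sub_eq_zero]
  exact (od_eq_iff hV.dvs).2 (Z.κ_eq P V hV h)

theorem od_κ_lt {b : Bs 4 K} (Z : TM b) {P : PModel ℂ K} (hV : Prm (oP P) V) (h : ¬ Prm Z.H V) :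
    od V (Z.κ - Z.r • kP P b) < 0 := by
  rw [map_sub, sub_neg]
  exact (od_lt_iff hV.dvs).2 (Z.κ_lt P V hV h)

/-- `E` has a centre of codimension two on `U` and is the only divisor over this centre on which
`K_Z` is not trivial: then `-K_Z · f ≥ 1` and `E` is ruled -/
theorem slice (hA : AdjGStmt) {b : Bs 4 K} (U Z : TM b) {E : RZ ℂ K} (hE : Prm Z.H E)
    (h2 : dim ℂ (ctr U.H E) = 2) (h0 : ∀ V, Dvs V → V ≠ E → loc U.H V = loc U.H E →
      dim ℂ (cen U.H V) = 2 → dg V (Z.κ :: replicate 2 U.H) = 0) :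
    dg E (Z.κ :: replicate 2 U.H) ≤ -(Z.r * dlV U.H E) ∧ ∃ t : Rf E, Rul.IsRat (cl U.H E) t := by
  classical
  have hd : dim ℂ K = 2 + 2 := Gfm.dim_eq_of_basis b
  obtain ⟨P, hP, hT⟩ := Gfm.exists_prm_oP hE.dvs {U.H, Z.H}
  have hU : U.H ∈ On P := hT _ (by simp)
  have hκ : ∀ {Y : TM b}, Y.H ∈ On P → Y.κ ∈ On P := fun {Y} h =>
    car_iff_On.1 (Car.trans Br.free_oP (car_of_On h) Y.car)
  have hF := U.mod.free
  have h3 := (dim_ctr hF hE.dvs).symm.trans h2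
  let C := cfg U.mod hU hd (Br.kP_mem b) (adjAt hA b hF hU)
  have hC : ∀ {V}, V ∈ C.s ↔ Prm (oP P) V ∧ ¬ Prm U.H V ∧ dim ℂ (cen U.H V) = 2 :=
    mem_cfg U.mod hU hd _ _
  have hEs : E ∈ C.s := hC.2 ⟨hP, fun h => by
    have := (prm_iff_dim_cen U.mod hE.dvs).1 h
    omega, h3⟩
  let T := C.s.filter fun V => loc U.H V = loc U.H E
  have hET : E ∈ T := mem_filter.2 ⟨hEs, rfl⟩
  have hTp : ∀ V ∈ T, Prm (oP P) V := fun V hV => (hC.1 (mem_filter.1 hV).1).1
  have hk : ∀ V ∈ T, ((dg V (kP P b :: replicate 2 U.H) : ℤ) : ℚ) = C.k V := fun V hV =>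
    congrArg _ (cfg_k U.mod hU hd _ _ (hTp V hV)).symm
  have hY : C.Sol T (fun j => C.k j) fun V => od V (U.κ - U.r • kP P b) / U.r := by
    refine (cfg_sol U.mod hU hd _ _ (Br.kP_mem b) (hκ hU) U.r_pos hTp (fun V hV => ?_)
      fun V hV W h4 h5 h6 => ?_).congr hk
    · exact dg_car hF (hTp V hV).dvs (hC.1 (mem_filter.1 hV).1).2.2.le U.car
    · have h7 := mem_ex2_of_mt U.mod hU hd (fun h => h5 (od_κ_eq U h4 h)) h6
      refine mem_filter.2 ⟨h7, Eq.trans (le_antisymm (Gz.loc_le ?_) (Gz.loc_le ?_))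
        (mem_filter.1 hV).2⟩
      · exact by_contra fun h => h6
          ((mt_comm V W).trans (mt_eq_zero hF hU h4 (mem_ex2.1 h7).2.2.le h))
      · exact by_contra fun h => h6 (mt_eq_zero hF hU (hTp V hV)
          (hC.1 (mem_filter.1 hV).1).2.2.le h)
  let D := Z.κ - Z.r • kP P b
  have hD : D ∈ On P := sub_mem (hκ (hT _ (by simp))) (nsmul_mem (Br.kP_mem b) _)
  let t := T.erase E
  let θ : RZ ℂ K → ℚ := fun V => -(∑ W ∈ sp P D \ t, od W D * C.M V W : ℤ) / Z.r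
  have hr : (0 : ℚ) < Z.r := Nat.cast_pos.2 Z.r_pos
  have hev : ∀ V ∈ T, C.ev t (fun j => C.k j - θ j) (fun V => od V D / Z.r) V =
      dg V (Z.κ :: replicate 2 U.H) / Z.r := fun V hV => by
    have h4 := dg_eq_sum (d := 2) hU (hTp V hV) hD (T := t ∪ sp P D \ t) fun W h5 h6 _ => by
      rw [union_sdiff_self_eq_union]
      exact mem_union_right _ (mem_sp.2 ⟨h5, h6⟩)
    rw [sum_union disjoint_sdiff, dg_sub, dg_nsmul, sub_eq_iff_eq_add'] at h4
    rw [h4, Cfg.ev, ← hk V hV]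
    simp only [θ, div_mul_eq_mul_div, ← sum_div]
    push_cast
    field_simp
    change _ - -∑ W ∈ sp P D \ t, (od W D : ℚ) * mx2 P U.H 2 V W +
      ∑ W ∈ t, (od W D : ℚ) * mx2 P U.H 2 V W = _
    ring
  have hins : insert E t = T := insert_erase hET
  obtain ⟨h4, h5, h6⟩ := stop (C := C) (t := t) (e := E) (θ := θ) (a := fun V => od V D / Z.r)
    ((erase_subset _ _).trans (filter_subset _ _)) hEs (notMem_erase _ _) (hins ▸ hY)
    (fun V hV => div_neg_of_neg_of_pos (Int.cast_lt_zero.2 (od_κ_lt U (hTp V (hins ▸ hV))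
      (hC.1 (mem_filter.1 (hins ▸ hV)).1).2.1)) (Nat.cast_pos.2 U.r_pos))
    (fun V hV => div_nonneg (neg_nonneg.2 (Int.cast_nonpos.2 (sum_nonpos fun W hW => by
      obtain ⟨h4, h5⟩ := mem_sdiff.1 hW
      refine mul_nonpos_of_nonpos_of_nonneg (od_κ_le Z (mem_sp.1 h4).1) (C.off _ _ ?_)
      rintro rfl
      rcases mem_insert.1 hV with rfl | h6
      · exact (mem_sp.1 h4).2 (od_κ_eq Z hP hE)
      · exact h5 h6))) hr.le)
    (fun V hV => by
      have h4 := mem_of_mem_erase hV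
      rw [hev V h4, h0 V (hTp V h4).dvs (ne_of_mem_erase hV) (mem_filter.1 h4).2
        (hC.1 (mem_filter.1 h4).1).2.2, Int.cast_zero, zero_div])
    fun V hV => div_nonpos_of_nonpos_of_nonneg
      (Int.cast_nonpos.2 (od_κ_le Z (hTp V (mem_of_mem_erase hV)))) hr.le
  have hδ := dlV_pos hF hE.dvs
  refine ⟨?_, ?_⟩
  · rw [hev E hET, div_le_iff₀ hr] at h4
    have h7 : ((dg E (Z.κ :: replicate 2 U.H) : ℤ) : ℚ) ≤ -(Z.r * dlV U.H E) := by
      rw [← mul_neg, mul_comm]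
      exact h4
    exact_mod_cast h7
  · haveI := essFT_Rf hE.dvs
    obtain ⟨x, hx⟩ := h6 (dgL E (replicate 2 U.H)).range fun j _ =>
      ⟨dv P j, (cfg_M U.mod hU hd _ _ hP j).symm⟩
    rw [dgL_apply, dg_eq_fdg hF hE.dvs h2, fdg_eq] at hx
    rw [cfg_k U.mod hU hd _ _ hP, cfg_M U.mod hU hd _ _ hP, ← dg_add,
      dg_eq_fdg hF hE.dvs h2] at h5
    have h7 := hA K b P U.H E hF hU hP h2
    change _ ≤ -2 * dlV U.H E at h5
    have h8 : fdg E (cl U.H E) (kP P b + dv P E) ≤ -2 := by nlinarith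
    obtain ⟨y, h9, h10⟩ := exists_rat (dim_cl_one hF hE.dvs hd h2) (by omega)
      (mul_left_cancel₀ hδ.ne' (hx.trans (mul_one _).symm))
    exact ⟨y, h9, h10⟩

/-- **DIV-A** -/
theorem divA_of (hRC : RCStmt) (hPG : PGStmt) (hA : AdjGStmt) (hL : LemAStmt) : DivAStmt := by
  intro K _ _ _ b U Z Y E hx hw
  have hd : dim ℂ K = 2 + 2 := Gfm.dim_eq_of_basis b
  have hE : Prm Z.H E := (hx.prm E).2 (Or.inr rfl)
  have hD := hE.dvs
  haveI := essFT_Rf hD
  have hF := U.mod.free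
  have h2 : dim ℂ (ctr U.H E) = 2 := dim_of_pg2 hw.1
  have h3 := (dim_ctr hF hD).symm.trans h2
  have h4 : ctr Y.H E ≤ cl U.H E := fun y hy => mem_cl.2 (hRC K b Y E _ hD hx.nE hw.1 y hy)
  refine by_contra fun hc => ?_
  have h5 : dim ℂ (ctr Y.H E) < 2 :=
    lt_of_le_of_ne (dim_ctr Y.mod.free hD ▸ dim_cen_le Y.mod hD hx.nE hd) hc
  obtain ⟨h6, t, ht⟩ := slice hA U Z hE h2 fun V hV hne hl hV2 =>
    dg_of_le hF Z.mod.free hV hV2 (fun y hy => mem_cl.2 (hRC K b Z V _ hV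
      (fun h => ((hx.prm V).1 h).elim (hw.2 V hV hl) hne)
      (pg2_of_loc hPG hV hl hw.1 ((dim_ctr hF hV).trans hV2)) y hy)) Z.car
  obtain ⟨m, hm, a, ha, h7⟩ := Y.qf Z.H
  have h8 : Car Z.H (a - m • Z.H) :=
    (Car.trans Z.mod.free hx.car ha).sub ((car_self Z.mod.free).nsmul m)
  have h9 : dg E ((a - m • Z.H) :: replicate 2 U.H) < 0 := by
    rw [dg_sub, dg_nsmul, dg_of_le hF Y.mod.free hD h3 h4 ha, zero_sub, neg_lt_zero]
    exact mul_pos (Nat.cast_pos.2 hm) (dg_pos_cen Z.mod hE hF hd h3)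
  have h10 : 0 ≤ a - m • Z.H := sub_nonneg.2 (ha.le_of_free Y.mod (Z.mod.free.nsmul m) h7.ge)
  obtain ⟨c, hc'⟩ := Int.eq_ofNat_of_zero_le (od_nonneg (V := E) h10)
  have h11 : 0 < c := Nat.pos_of_ne_zero fun h => h9.not_ge
    (dg_nonneg_of h10 ((od_eq_zero hD).1 (by rw [hc', h]; rfl)) (all_rp hF.nef _))
  have h12 := hL K b Z Y E _ t _ c hx (hPG _ _ (IntermediateField.inclusion (ctr_le_cl U.H E))
    hw.1 ((dim_cl hD _).trans h2)) ht h4 h5 h11 h8
    (fun V hV => by rw [map_sub, sub_eq_zero]; exact (od_eq_iff hV.dvs).2 (h7 V hV)) hc'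
  have h13 := mul_le_mul_of_nonneg_left h12 (dlV_pos hF hD).le
  rw [← dg_eq_fdg hF hD h2, dg_neg, dg_add, dg_nsmul, dg_nsmul] at h13
  have h14 : (0 : ℤ) < Z.r := Nat.cast_pos.2 Z.r_pos
  nlinarith [mul_le_mul_of_nonneg_left h6 (Int.natCast_nonneg c), mul_pos h14 (neg_pos.2 h9)]

end Crest.Agent.X262.Reg
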