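import Crest.Agent.X262.Slc57.Num

/-!
# Row 262, REG (helper18): the numerical part of DIV-A

`stop`: blow down the `(-1)`-curves over a terminal point until the curve `e` is itself a
`(-1)`-curve.
-/

set_option autoImplicit false

open Finset

namespace Crest.Agent.X262.Reg

open Crest.Agent.X262.Slc57 Crest.Agent.X262.Slc57.Cfg

/-- `insert e t` is contracted to a terminal point; `t` is contracted on a second model with
`K - Θ + ∑ a i E i` trivial on `t`.  Then this class has degree `≤ -δ` on `e`, the genus of `e` is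
zero and the weight `δ e` is a combination of the intersection numbers. -/
theorem stop {ι : Type*} [DecidableEq ι] {C : Cfg ι} {t : Finset ι} {e : ι} {a a' θ : ι → ℚ}
    (ht : t ⊆ C.s) (he : e ∈ C.s) (het : e ∉ t)
    (hY : C.Sol (insert e t) (fun j => C.k j) a') (ha' : ∀ i ∈ insert e t, a' i < 0)
    (hθ : ∀ j ∈ insert e t, 0 ≤ θ j) (hZ : C.Sol t (fun j => C.k j - θ j) a)
    (ha : ∀ i ∈ t, a i ≤ 0) :
    C.ev t (fun j => C.k j - θ j) a e ≤ -C.δ e ∧ C.k e + C.M e e ≤ -2 * C.δ e ∧
      ∀ G : AddSubgroup ℤ, (∀ j ∈ insert e t, C.M e j ∈ G) → C.δ e ∈ G := by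
  induction hn : t.card using Nat.strong_induction_on generalizing C t θ with
  | _ n ih =>
    obtain ⟨i₀, hi, hk⟩ := hY.exists_neg (insert_subset he ht) (insert_nonempty _ _) ha'
    by_cases hie : i₀ = e
    · subst hie
      obtain ⟨h1, h2⟩ := one_of_neg he hk
      refine ⟨?_, by omega, fun G hG => ?_⟩
      · have h3 : ∑ i ∈ t, a i * (C.M i₀ i : ℚ) ≤ 0 := sum_nonpos fun i hi =>
          mul_nonpos_of_nonpos_of_nonneg (ha i hi)
            (by exact_mod_cast C.off i₀ i fun h => het (h ▸ hi))
        have h4 := hθ i₀ (mem_insert_self _ _)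
        have h5 : (C.k i₀ : ℚ) = -C.δ i₀ := by exact_mod_cast h1
        simp only [ev]
        linarith
      · have := G.neg_mem (hG i₀ (mem_insert_self _ _))
        rwa [h2, neg_neg] at this
    · have hi' : i₀ ∈ t := (mem_insert.1 hi).resolve_left hie
      have h0 := ht hi'
      have hne : e ≠ i₀ := fun h => hie h.symm
      have h1 := (hY.bd (h0 := h0) (hk := hk) hi).congr fun j _ => pu_k (h0 := h0) (hk := hk) j
      rw [erase_insert_of_ne hne] at h1
      have hsub : ∀ j ∈ insert e (t.erase i₀), j ∈ insert e t ∧ j ≠ i₀ := fun j hj => by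
        rcases mem_insert.1 hj with rfl | hj
        · exact ⟨mem_insert_self _ _, hne⟩
        · exact ⟨mem_insert_of_mem (mem_of_mem_erase hj), ne_of_mem_erase hj⟩
      have hpu : ∀ j, C.pu i₀ (fun j => C.k j - θ j) j =
          (C.bd i₀ h0 hk).k j - C.pu i₀ θ j := fun j => by
        rw [← pu_k]; simp only [pu]; ring
      obtain ⟨h2, h3, h4⟩ := ih _ (hn ▸ card_erase_lt_of_mem hi') (C := C.bd i₀ h0 hk)
        (θ := C.pu i₀ θ) (erase_sub (h0 := h0) (hk := hk) ht) (mem_erase.2 ⟨hne, he⟩)
        (fun h => het (mem_of_mem_erase h)) h1 (fun i hi => ha' i (hsub i hi).1)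
        (fun j hj => add_nonneg (hθ j (hsub j hj).1)
          (mul_nonneg (by exact_mod_cast m_nonneg h0 (hsub j hj).2) (hθ _ hi)))
        ((hZ.bd hi').congr fun j _ => hpu j) (fun i hi => ha i (mem_of_mem_erase hi)) rfl
      refine ⟨?_, ?_, fun G hG => h4 G fun j hj => ?_⟩
      · rw [← ev_bd (h0 := h0) (hk := hk) hi' (hZ _ hi') hne, ev, hpu]
        exact h2
      · rw [bd_M hne hne] at h3
        change C.k e + C.m i₀ e * C.k i₀ + _ ≤ -2 * C.δ e at h3
        rw [(one_of_neg h0 hk).1] at h3
        have h5 := m_nonneg h0 hne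
        have h6 := C.δ_pos _ h0
        have h7 : 0 ≤ C.m i₀ e * (C.m i₀ e - 1) := by
          rcases h5.eq_or_lt with h | h
          · rw [← h]; simp
          · exact mul_nonneg h5 (by omega)
        nlinarith [mul_nonneg h7 h6.le]
      · rw [bd_M hne (hsub j hj).2, mul_right_comm, m_mul h0, C.symm i₀ e]
        refine G.add_mem (hG j (hsub j hj).1) ?_
        rw [mul_comm, ← smul_eq_mul]
        exact G.zsmul_mem (hG i₀ hi) _

end Crest.Agent.X262.Reg
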